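import Vale.Agent.P235.K5.SX.Asm
import Vale.Agent.P235.K5.SX.H696.S1
import Vale.Agent.P235.K5.SX.H378.S2Fin
import Vale.Agent.P235.K5.SX.H183.S3Lit
import Vale.Agent.P235.K5.SX.H452.N
import Vale.Agent.P235.K5.SX.H655.S5
import Vale.Agent.P235.K5.SX.H964.S6
import Vale.Agent.P235.K5.H803.Mix
import Vale.Agent.P235.K5.H477.Sum

/-!
# Line SX, the final clause (helper801)

Sums over cliques with at most three vertices, in any order, of pieces of treewidth at most `w`,
of pieces without `K₅` and `K_{3,3}` minor (any root clique), and of the pieces of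
`H477.GluePiece1`.
-/

set_option autoImplicit false
set_option linter.all false

namespace Vale.Agent.P235.K5.SX.H801

open SimpleGraph hiding Free
open Vale.Agent.P235 Vale.Agent.P235.H134 Vale.Agent.P235.H56 Vale.Agent.P235.K5
open Vale.Agent.P235.H341W (capG)
open Vale.Agent.P235.K5.SX

/-- the semimetric `A`; pieces of type P in the class `H477.PR` -/
theorem exists_AR (h1 : S1Stmt) (h2 : S2Stmt) (h3 : S3Stmt) {c : ℝ} (hc : 0 < c) (hc1 : c ≤ 1)
    {V : Type} [Finite V] {H : SimpleGraph V} {n : ℕ} {B : ℕ → Set V} {T : ℕ → Prop}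
    (h : Glued 3 H n B)
    (hB : ∀ t < n, T t ∨ H477.PR c (B t) (H.induce (B t)) {x | (x : V) ∈ Adh B t})
    {d : V → V → ℝ} (hd : IsMet d) (hG : Gen H d) :
    ∃ A : V → V → ℝ, IsL1 A ∧ (∀ x y, A x y ≤ d x y) ∧
      ∀ t < n, ∀ x ∈ B t, ∀ y ∈ B t, Tri3 (c / 12288) (T t) d A (Adh B t) x y := by
  refine h3 V H n B T h d hd hG (c / 12288) (by positivity) ?_
  intro t ht ρ hρ hρd
  have hsub : Adh B t ⊆ B t := fun v hv => hv.1
  have hd' : IsMet fun x y : B t => d x y :=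
    ⟨fun x => hd.self _, fun x y hxy => hd.pos _ _ fun e => hxy (Subtype.ext e),
      fun x y => hd.symm _ _, fun x y z => hd.tri _ _ _⟩
  have hG' : Gen (H.induce (B t)) fun x y : B t => d x y := h.gen_bag hd hG ht
  have hcard : ({x | (x : V) ∈ Adh B t} : Set (B t)).ncard ≤ 3 := by
    rw [H500.ncard_sub hsub]; exact h.card t ht
  -- from the subtype to the whole graph
  have lift : ∀ (k' : ℝ) (far : Prop), 0 ≤ k' → c / 12288 ≤ k' → (far → T t) →
      (∃ F : B t → B t → ℝ, IsL1 F ∧ (∀ x ∈ ({x | (x : V) ∈ Adh B t} : Set (B t)),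
        ∀ y ∈ ({x | (x : V) ∈ Adh B t} : Set (B t)), F x y = ρ x y) ∧
        (∀ x y, F x y ≤ d x y) ∧
        ∀ x y, Tri3 k' far (fun x y : B t => d x y) F {x | (x : V) ∈ Adh B t} x y) →
      ∃ F : V → V → ℝ, IsL1 F ∧ (∀ x ∈ Adh B t, ∀ y ∈ Adh B t, F x y = ρ x y) ∧
        (∀ x ∈ B t, ∀ y ∈ B t, F x y ≤ d x y) ∧
        ∀ x ∈ B t, ∀ y ∈ B t, Tri3 (c / 12288) (T t) d F (Adh B t) x y := by
    intro k' far hk0 hk' hfar hex
    obtain ⟨F, g1, g2, g3, g4⟩ := hex
    obtain ⟨F', e1, e2⟩ := extendL1 g1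
    refine ⟨F', e1, ?_, ?_, ?_⟩
    · intro x hx y hy
      exact (e2 ⟨x, hsub hx⟩ ⟨y, hsub hy⟩).trans (g2 _ hx _ hy)
    · intro x hx y hy
      rw [e2 ⟨x, hx⟩ ⟨y, hy⟩]
      exact g3 _ _
    · intro x hx y hy
      have hdn := hd.nonneg x y
      have h6 : c / 12288 * d x y ≤ k' * d x y := mul_le_mul_of_nonneg_right hk' hdn
      rcases g4 ⟨x, hx⟩ ⟨y, hy⟩ with h5 | ⟨r, hr, s, hs, h5⟩ | ⟨hf, h5⟩
      · left
        rw [e2 ⟨x, hx⟩ ⟨y, hy⟩]
        exact h6.trans h5
      · right; left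
        refine ⟨r, hr, s, hs, ?_⟩
        rw [e2 ⟨x, hx⟩ ⟨y, hy⟩, e2 r s]
        have h7 : 0 ≤ d x r + d y s := add_nonneg (hd.nonneg _ _) (hd.nonneg _ _)
        have h8 : c / 12288 * (d x r + d y s) ≤ k' * (d x r + d y s) :=
          mul_le_mul_of_nonneg_right hk' h7
        have h9 : F r s + k' * (d x r + d y s) ≤ F ⟨x, hx⟩ ⟨y, hy⟩ := h5
        linarith
      · right; right
        refine ⟨hfar hf, fun r hr s hs => ?_⟩
        have h8 : k' * d x y ≤ d x r + d y s := h5 ⟨r, hsub hr⟩ hr ⟨s, hsub hs⟩ hs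
        exact h6.trans h8
  by_cases hT : T t
  · exact lift (1 / 1024) True (by norm_num) (by linarith) (fun _ => hT)
      (h2 (B t) (fun x y : B t => d x y) hd' {x | (x : V) ∈ Adh B t} hcard
        (fun x y : B t => ρ x y) (H500.isL1_restrict hρ _) (fun u hu v hv => hρd u hu v hv))
  · obtain ⟨hconn, hE1, hE2, hE3⟩ := (hB t ht).resolve_left hT
    by_cases hR : ({x | (x : V) ∈ Adh B t} : Set (B t)).ncard ≤ 1
    · obtain ⟨F, g1, g2, g3⟩ := hE1 hR (fun x y : B t => d x y) hd' hG'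
      refine lift c False hc.le (by linarith) (fun h => h.elim) ⟨F, g1, ?_, g3, fun x y => ?_⟩
      · intro u hu v hv
        have huv : u = v := (Set.ncard_le_one (Set.toFinite _)).1 hR u hu v hv
        rw [huv, g1.self, hρ.self]
      · exact Or.inl (g2 x y)
    · have hE : EdgeExact (H.induce (B t)) c := by
        rcases Nat.lt_or_ge ({x | (x : V) ∈ Adh B t} : Set (B t)).ncard 3 with h4 | h4
        · exact hE2 (by omega)
        · exact (hE3 (by omega)).1
      exact lift (c / 12288) False (by positivity) le_rfl (fun h => h.elim)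
        (h1 (B t) (H.induce (B t)) c hc hc1 hconn hE (fun x y : B t => d x y) hd' hG'
          {x | (x : V) ∈ Adh B t} hcard
          (fun u hu v hv huv => h.clique t ht u hu v hv fun e => huv (Subtype.ext e))
          (fun h3 => (hE3 h3).2) (fun x y : B t => ρ x y) (H500.isL1_restrict hρ _)
          (fun u hu v hv => hρd u hu v hv))

/-- **the embedding**, pieces of type P in the class `H477.PR` -/
theorem embR (h1 : S1Stmt) (h2 : S2Stmt) (h3 : S3Stmt) (h4 : NStmt) (h5 : S5Stmt) (h6 : S6Stmt)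
    (w : ℕ) (c : ℝ) (hc : 0 < c) (hc1 : c ≤ 1) :
    ∃ D : ℝ, 0 < D ∧ D ≤ 1 ∧ ∀ (V : Type) [Finite V] (H : SimpleGraph V) (n : ℕ) (B : ℕ → Set V)
      (T : ℕ → Prop), Glued 3 H n B →
      (∀ t < n, T t → TreewidthLE (H.induce (B t)) w) →
      (∀ t < n, T t ∨ H477.PR c (B t) (H.induce (B t)) {x | (x : V) ∈ Adh B t}) →
      ∀ d : V → V → ℝ, IsMet d → Gen H d → R2.H598.Emb d D := by
  obtain ⟨cN, C2, hcN, hcN1, hC2, HN⟩ := h4 (max 3 w) (by omega)
  set k : ℝ := c / 12288 with hkdef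
  have hk : 0 < k := by positivity
  have hk1 : k ≤ 1 := by rw [hkdef]; linarith
  set c0 : ℝ := min (k / 2) (k / 4 * cN * k) with hc0def
  have hc0 : 0 < c0 := lt_min (by positivity) (by positivity)
  have hc01 : c0 ≤ 1 := (min_le_left _ _).trans (by linarith)
  refine ⟨min (c0 / 2) (c0 / (8 * C2)) / 2, ?_, ?_, ?_⟩
  · have : 0 < min (c0 / 2) (c0 / (8 * C2)) := lt_min (by positivity) (by positivity)
    linarith
  · have : min (c0 / 2) (c0 / (8 * C2)) ≤ c0 / 2 := min_le_left _ _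
    linarith
  intro V _ H n B T hG hTw hB d hd hgen
  obtain ⟨H', m, C, phi, hF⟩ := h5 w V H n B T hG hTw
  obtain ⟨Y⟩ := hF.glued.exists_tree
  have hgen' : Gen H' d := gen_le hF.le hgen
  obtain ⟨A, hA0, hA1, hA2⟩ := exists_AR h1 h2 h3 hc hc1 hG hB hd hgen
  obtain ⟨N, hN0, hN1, hN2, hN3⟩ := HN V H' m C hF.glued Y (fun s => T (phi s))
    (fun s => Adh B (phi s)) hF.new (region hF Y) d hd hgen'
  have hmix := h6 w V H n B T H' m C phi hG hF d hd k cN hk hk1 hcN hcN1 A N hA0 hN0 hA1 hN1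
    hA2 hN3
  have hk4 : 0 ≤ 1 - k / 4 := by linarith
  have hk5 : 0 ≤ k / 4 := by linarith
  have hFA : IsL1 fun x y => (1 - k / 4) * A x y + k / 4 * N x y :=
    (hA0.smul hk4).add (hN0.smul hk5)
  have hFA1 : ∀ x y, (1 - k / 4) * A x y + k / 4 * N x y ≤ d x y := by
    intro x y
    have g1 := mul_le_mul_of_nonneg_left (hA1 x y) hk4
    have g2 := mul_le_mul_of_nonneg_left (hN1 x y) hk5
    linarith
  have hcr := H12.cross hF.glued Y hd hc0 hc01 hC2 hFA hN0 hFA1 hmix hN2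
  refine ⟨fun x y => 1 / 2 * (((1 - k / 4) * A x y + k / 4 * N x y) + N x y),
    (hFA.add hN0).smul (by norm_num), ?_, ?_⟩
  · intro x y
    have g1 := hcr x y
    show _ ≤ 1 / 2 * (((1 - k / 4) * A x y + k / 4 * N x y) + N x y)
    linarith
  · intro x y
    have g1 := hFA1 x y
    have g2 := hN1 x y
    show 1 / 2 * (((1 - k / 4) * A x y + k / 4 * N x y) + N x y) ≤ _
    linarith

/-- **Sums over at most three vertices of pieces of treewidth at most `w` and pieces of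
`H477.PR c`.** No hypothesis left. -/
theorem finR (w : ℕ) (c : ℝ) (hc : 0 < c) (hc1 : c ≤ 1) :
    ∃ K : ℝ, 1 ≤ K ∧ ∀ (V : Type) [Finite V] (G H : SimpleGraph V), G ≤ H → G.Connected →
      CliqueSum 3 (fun V G R => TreewidthLE G w ∨ H477.PR c V G R) H → DistortionLE G K := by
  obtain ⟨D, hD, hD1, HD⟩ := embR H696.s1Stmt H378.s2Stmt H183.s3 H452.n H655.s5 H964.s6 w c hc hc1
  refine ⟨1 / D, (one_le_div hD).2 hD1, ?_⟩
  intro V _ G H hle hconn hS ℓ hℓ
  obtain ⟨n, B, hG, hB⟩ := hS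
  have hd := pathDist_isMet hconn hℓ
  have hgenG : Gen G (pathDist G ℓ) := by
    intro f hf x y
    exact pathDist_gen hconn (fun u v huv => (hf u v huv).trans (pathDist_adj hℓ huv)) x y
  have hgen : Gen H (pathDist G ℓ) := gen_le hle hgenG
  exact (HD V H n B (fun t => TreewidthLE (H.induce (B t)) w) hG (fun t _ h => h) hB _ hd
    hgen).embedsL1 hD

/-- A piece `G` with the clique `R` along which it is glued on: of treewidth at most `w`; or
without `K₅` and `K_{3,3}` minor; or in `H477.GluePiece1 C`. -/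
def Piece (C : ℝ) (w : ℕ) (V : Type) (G : SimpleGraph V) (R : Set V) : Prop :=
  (TreewidthLE G w ∨ H477.GluePiece1 C V G R) ∨
    (¬ IsMinor (⊤ : SimpleGraph (Fin 5)) G ∧ ¬ IsMinor K33 G)

/-- **The final clause.** -/
theorem sx (C : ℝ) (w : ℕ) : ∃ K : ℝ, 1 ≤ K ∧ ∀ (V : Type) [Finite V] (G H : SimpleGraph V),
    G ≤ H → G.Connected → CliqueSum 3 (Piece C w) H → DistortionLE G K := by
  obtain ⟨C0, hC0, h1, -⟩ := H12.main3
  set M : ℝ := max (max C C0) 1 with hM
  have hM1 : (1 : ℝ) ≤ M := le_max_right _ _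
  have hM0 : (0 : ℝ) < M := by linarith
  have hCM : C ≤ M := (le_max_left _ _).trans (le_max_left _ _)
  have hC0M : C0 ≤ M := (le_max_right _ _).trans (le_max_left _ _)
  obtain ⟨K, hK1, hK⟩ := finR w (1 / M) (by positivity) ((div_le_one hM0).2 hM1)
  refine ⟨K, hK1, fun V _ G H hGH hG h => hK V G H hGH hG ?_⟩
  have h' := H803.cliqueSum_mix (P := fun V G R => TreewidthLE G w ∨ H477.GluePiece1 C V G R) h
  have cap : ∀ (B : Set V) (R : Set B), (H.induce B).Connected →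
      ¬ IsMinor K33 (capG (H.induce B) R) → H477.PR (1 / M) B (H.induce B) R := by
    intro B R hB h2
    have hE : EdgeExact (H.induce B) (1 / M) :=
      EdgeIso.edgeExact hM0 fun _ => ST.H626.EdgeIso.mono'
        (h1 B _ hB fun h33 => h2 (minor_trans h33 (H56.minor_cap _ _))).1 hC0M
    exact ⟨hB, fun _ => H477.plain_of_exact hB hE, fun _ => hE, fun _ => ⟨hE, h2⟩⟩
  refine H56.CliqueSum.mono' h' ?_
  rintro B R ((h2 | ⟨hB, ⟨hR, h2⟩ | ⟨hR, h2⟩ | h2⟩) | ⟨hB, h2⟩)
  · exact Or.inl h2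
  · exact Or.inr (H477.PR_of_dist hB hM1 (h2.mono hCM) hR)
  · right
    have hE : EdgeExact (H.induce B) (1 / M) :=
      EdgeIso.edgeExact hM0 fun _ => ST.H626.EdgeIso.mono' h2 hCM
    exact ⟨hB, fun _ => H477.plain_of_exact hB hE, fun _ => hE, fun h3 => by omega⟩
  · exact Or.inr (cap B R hB h2)
  · exact Or.inr (cap B R hB h2)

end Vale.Agent.P235.K5.SX.H801
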